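import Crest.Agent.X37.Geo.Step
import Crest.Agent.X37.LB.Defs

/-!
X37 geometry: the Steiner-potential CLAIM of Lemma B.
-/

set_option autoImplicit false

namespace Crest.Agent.X37.Geo

open Finset

theorem claim_of_le {C : ℝ} (hC : 5760 ≤ C) : LB.Claim C := by
  intro V _ _ _ d c s0 del p q J Z h1 h2 h3 hs0 hdel hdel1 hp _ hc0 hmono hconn hsep hpart
  have hd : IsPM d := ⟨h1, h2, h3⟩
  have hn : ∀ f : V → V, LB.ncl f = (ncl f : ℝ) - 1 := fun _ => rfl
  have hn0 : ∀ f : V → V, 0 ≤ LB.ncl f := by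
    intro f
    have : (1 : ℝ) ≤ ncl f := by exact_mod_cast one_le_ncl f
    rw [hn]; linarith
  have hle : ∀ i j, i ≤ j → ∀ u v, c i u = c i v → c j u = c j v := by
    intro i j hij u v huv
    induction j, hij using Nat.le_induction with
    | base => exact huv
    | succ j _ ih => exact hmono j u v ih
  have key : ∀ j : ℕ, ∃ φ T, St d φ T (del * (s0 * 2 ^ (j * p + q)) / 4)
      (2 * (s0 * 2 ^ (j * p + q)))
      (2 * ∑ i ∈ range (j * p), s0 * 2 ^ i * LB.ncl (c i) +
        40 * ∑ k ∈ range j, s0 * 2 ^ (k * p + q) * LB.ncl (c (k * p)) -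
        del / 144 * ∑ k ∈ range j, s0 * 2 ^ (k * p + q) * ((Z k).card : ℝ)) ∧
      ∀ a b, φ a = φ b ↔ c (j * p) a = c (j * p) b := by
    intro j
    induction j with
    | zero =>
      refine ⟨id, Tr.pt, ⟨fun v => ⟨v, rfl, ?_⟩, fun _ => trivial, by simp [Tr.cost]⟩,
        fun a b => ⟨fun h => by rw [show a = b from h], fun h => hc0 a b (by simpa using h)⟩⟩
      rw [h1]; positivity
    | succ j ih =>
      obtain ⟨φ, T, st, hφ⟩ := ih
      set t : ℝ := s0 * 2 ^ (j * p + q) with ht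
      have ht0 : 0 < t := by positivity
      have hpw : (0 : ℝ) < 2 ^ p := by positivity
      have e1 : s0 * 2 ^ ((j + 1) * p + q) = t * 2 ^ p := by
        rw [ht, show (j + 1) * p + q = j * p + q + p by ring, pow_add]; ring
      have e2 : s0 * 2 ^ (j * p) ≤ t := by
        have : (2 : ℝ) ^ (j * p) ≤ 2 ^ (j * p + q) := pow_le_pow_right₀ (by norm_num) (by omega)
        rw [ht]; nlinarith
      have e3 : s0 * 2 ^ (j * p + p) ≤ t * 2 ^ p := by
        rw [pow_add, ← mul_assoc]; exact mul_le_mul_of_nonneg_right e2 hpw.le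
      have e4 : 5760 * t ≤ del * (t * 2 ^ p) := by nlinarith
      have e5 : del * (t * 2 ^ p) ≤ t * 2 ^ p := by
        have : 0 < t * 2 ^ p := by positivity
        nlinarith
      have e6 : del * t ≤ t := by nlinarith
      have e7 : 0 < del * t := by positivity
      have ej : (j + 1) * p = j * p + p := by ring
      obtain ⟨φ1, T1, s1, p1, n1⟩ := St.save hd (P := c ((j + 1) * p)) ht0 hdel hdel1 le_rfl st
        (fun a b h => hle _ _ (by rw [ej]; omega) a b ((hφ a b).1 h)) (Z j) (hsep j) (by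
          intro x hx
          obtain ⟨y, y1, y2, y3⟩ := hpart j x hx
          exact ⟨y, y1, fun h => y2 ((hφ x y).1 h), y3⟩)
      obtain ⟨φ2, T2, s2, p2⟩ := St.merge_range hd hs0 (l := 2 * (t * 2 ^ p)) (by linarith) hmono
        hconn (j * p) p (by linarith) (s1.mono le_rfl (by linarith) le_rfl) (by rw [← ej]; exact p1)
      refine ⟨φ2, T2, ?_, by rw [ej]; exact p2⟩
      rw [e1]
      refine s2.mono (by linarith) le_rfl ?_
      have n2 : ncl φ ≤ ncl (c (j * p)) := ncl_le_of fun a b h => (hφ a b).2 h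
      have n3 : (ncl φ : ℝ) - 1 ≤ LB.ncl (c (j * p)) := by
        have : (ncl φ : ℝ) ≤ ncl (c (j * p)) := by exact_mod_cast n2
        rw [hn]; linarith
      have n4 : (ncl φ1 : ℝ) - 1 ≤ LB.ncl (c (j * p)) := by
        have : (ncl φ1 : ℝ) ≤ ncl φ := by exact_mod_cast n1
        linarith
      have n5 : (0 : ℝ) ≤ (ncl φ1 : ℝ) - 1 := hn0 φ1
      have n6 := hn0 (c (j * p))
      have f1 : (s0 * 2 ^ (j * p) + 2 * (del * t / 4 + 18 * t)) * ((ncl φ1 : ℝ) - 1) ≤
          39 * t * LB.ncl (c (j * p)) :=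
        mul_le_mul (by linarith) n4 n5 (by linarith)
      have f2 := mul_le_mul_of_nonneg_left n3 ht0.le
      rw [sum_range_succ, sum_range_succ, ej, sum_range_add, ← ht]
      simp only [← hn]
      simp only [← hn] at f1 f2
      linarith
  obtain ⟨φ, T, st, -⟩ := key J
  have k1 := (sum_nonneg fun i _ => Tr.cost_nonneg hd.nonneg (T i)).trans st.cost
  have k2 : 0 ≤ ∑ i ∈ range (J * p), s0 * 2 ^ i * LB.ncl (c i) :=
    sum_nonneg fun i _ => mul_nonneg (by positivity) (hn0 _)
  have k3 : 0 ≤ ∑ k ∈ range J, s0 * 2 ^ (k * p + q) * LB.ncl (c (k * p)) :=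
    sum_nonneg fun i _ => mul_nonneg (by positivity) (hn0 _)
  rw [div_mul_eq_mul_div, le_div_iff₀ hdel]
  nlinarith

/-- **The geometric CLAIM of Lemma B.** -/
theorem claim : LB.Claim 6000 := claim_of_le (by norm_num)

end Crest.Agent.X37.Geo
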