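import Mathlib

/-!
X37 (thin trees), geometry: statement of the Steiner-potential CLAIM of Lemma B (note 132)
and the rooted trees used in its proof (helper13).
-/

set_option autoImplicit false

namespace Crest.Agent.X37.Geo

/-- `d` is a pseudo-metric on `V`. -/
structure IsPM {V : Type*} (d : V → V → ℝ) : Prop where
  self : ∀ x, d x x = 0
  symm : ∀ x y, d x y = d y x
  tri : ∀ x y z, d x z ≤ d x y + d y z

theorem IsPM.nonneg {V : Type*} {d : V → V → ℝ} (h : IsPM d) (x y : V) : 0 ≤ d x y := by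
  have h1 := h.tri x y x
  rw [h.self, h.symm y x] at h1
  linarith

/-- number of classes of the partition given by the label map `f` -/
def ncl {V : Type*} [Fintype V] [DecidableEq V] (f : V → V) : ℕ := (Finset.univ.image f).card

/-- The Steiner CLAIM.  `P i` is the label map of the partition at the dyadic level `i`
(scale `s0 * 2 ^ i`), level `j` of the residue class sits at the index `i0 + j * q` and has the
scale `t j = 2 * K * (s0 * 2 ^ (i0 + j * q))`. -/
def SteinerClaim (C : ℝ) : Prop :=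
  ∀ (V : Type) [Fintype V] [DecidableEq V] [Nonempty V] (d : V → V → ℝ) (P : ℕ → V → V)
    (s0 K δ : ℝ) (q i0 J : ℕ) (N : ℕ → Finset V),
    IsPM d → 0 < s0 → 1 ≤ K → 0 < δ → δ ≤ 1 → 37 ≤ δ * 2 ^ q →
    (∀ u v, P 0 u = P 0 v → u = v) →
    (∀ i u v, P i u = P i v → P (i + 1) u = P (i + 1) v) →
    (∀ i u v, P i u = P i v →
      Relation.ReflTransGen (fun x y => P i x = P i y ∧ d x y ≤ s0 * 2 ^ i) u v) →
    (∀ j < J, ∀ p ∈ N j, ∀ p' ∈ N j, p ≠ p' →
      δ * (2 * K * (s0 * 2 ^ (i0 + j * q))) ≤ d p p') →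
    (∀ j < J, ∀ p ∈ N j, ∃ p', d p p' ≤ 2 * K * (s0 * 2 ^ (i0 + j * q)) ∧
      P (i0 + j * q) p ≠ P (i0 + j * q) p' ∧ P (i0 + (j + 1) * q) p = P (i0 + (j + 1) * q) p') →
    ∑ j ∈ Finset.range J, δ * (2 * K * (s0 * 2 ^ (i0 + j * q))) * ((N j).card : ℝ) ≤
      C * K * ∑ i ∈ Finset.range (i0 + J * q + 1), s0 * 2 ^ i * ((ncl (P i) : ℝ) - 1)

/-- rooted trees with vertices labelled by points of `V`; `join s t` hangs the root of `t`
below the root of `s` -/
inductive Tr (V : Type*) where
  | pt (v : V) : Tr V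
  | join (s t : Tr V) : Tr V

namespace Tr

variable {V : Type*}

/-- the root -/
def root : Tr V → V
  | pt v => v
  | join s _ => s.root

/-- membership of a point -/
def Mem (x : V) : Tr V → Prop
  | pt v => x = v
  | join s t => Mem x s ∨ Mem x t

/-- total `f`-length of the edges -/
def cost (f : V → V → ℝ) : Tr V → ℝ
  | pt _ => 0
  | join s t => s.cost f + t.cost f + f s.root t.root

/-- all edges have `d`-length at most `l` -/
def Bdd (d : V → V → ℝ) (l : ℝ) : Tr V → Prop
  | pt _ => True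
  | join s t => s.Bdd d l ∧ t.Bdd d l ∧ d s.root t.root ≤ l

end Tr

end Crest.Agent.X37.Geo
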