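import Crest.Agent.X37.Geo.Tree

/-!
X37 geometry: networks (one tree per class of a label map) and the connector steps.
-/

set_option autoImplicit false

namespace Crest.Agent.X37.Geo

open Finset

variable {V : Type} [Fintype V] [DecidableEq V]

/-- a network: the tree `T (φ v)` comes within `r` of `v`, all edges are at most `l`, the total
length is at most `c` -/
structure St (d : V → V → ℝ) (φ : V → V) (T : V → Tr V) (r l c : ℝ) : Prop where
  cov : ∀ v, ∃ x, (T (φ v)).Mem x ∧ d v x ≤ r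
  bdd : ∀ i, (T i).Bdd d l
  cost : ∑ i, (T i).cost d ≤ c

theorem St.mono {d : V → V → ℝ} {φ : V → V} {T : V → Tr V} {r l c r' l' c' : ℝ}
    (h : St d φ T r l c) (hr : r ≤ r') (hl : l ≤ l') (hc : c ≤ c') : St d φ T r' l' c' :=
  ⟨fun v => let ⟨x, h1, h2⟩ := h.cov v; ⟨x, h1, h2.trans hr⟩, fun i => (h.bdd i).mono hl,
    h.cost.trans hc⟩

theorem ncl_le_of {f g : V → V} (h : ∀ a b, f a = f b → g a = g b) : ncl g ≤ ncl f := by
  classical
  unfold ncl
  refine card_le_card_of_surjOn (fun i => if hi : ∃ a, f a = i then g hi.choose else i) ?_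
  intro y hy
  obtain ⟨a, -, rfl⟩ := mem_image.1 (mem_coe.1 hy)
  have hi : ∃ b, f b = f a := ⟨a, rfl⟩
  refine ⟨f a, mem_coe.2 (mem_image_of_mem _ (mem_univ a)), ?_⟩
  simp only [dif_pos hi]
  exact h _ _ hi.choose_spec

theorem one_le_ncl [Nonempty V] (f : V → V) : 1 ≤ ncl f :=
  card_pos.2 (univ_nonempty.image f)

theorem sum_update_cost (d : V → V → ℝ) (T : V → Tr V) (j : V) (U : Tr V) :
    ∑ i, (Function.update T j U i).cost d = ∑ i, (T i).cost d - (T j).cost d + U.cost d := by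
  rw [← add_sum_erase _ _ (mem_univ j), ← add_sum_erase _ (fun i => (T i).cost d) (mem_univ j),
    Function.update_self]
  have : ∑ i ∈ univ.erase j, (Function.update T j U i).cost d
      = ∑ i ∈ univ.erase j, (T i).cost d :=
    sum_congr rfl fun i hi => by rw [Function.update_of_ne (ne_of_mem_erase hi)]
  rw [this]; ring

theorem St.merge_one {d : V → V → ℝ} (hd : IsPM d) {φ : V → V} {T : V → Tr V} {r l c σ : ℝ}
    (h : St d φ T r l c) {u v : V} (huv : φ u ≠ φ v) (hσ : d u v ≤ σ) (hl : σ + 2 * r ≤ l) :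
    ∃ φ' T', St d φ' T' r l (c + (σ + 2 * r)) ∧ ncl φ' < ncl φ ∧
      (∀ a b, φ' a = φ' b → φ a = φ b ∨ (φ a = φ u ∧ φ b = φ v) ∨ (φ a = φ v ∧ φ b = φ u)) ∧
      (∀ a b, φ a = φ b → φ' a = φ' b) := by
  obtain ⟨x, hx, hux⟩ := h.cov u
  obtain ⟨y, hy, hvy⟩ := h.cov v
  have hxy : d x y ≤ σ + 2 * r := by
    have h1 := hd.tri x u y
    have h2 := hd.tri u v y
    rw [hd.symm x u] at h1
    linarith
  obtain ⟨U, hU1, hU2, hU3⟩ := Tr.link hd hx hy (h.bdd _) (h.bdd _) (hxy.trans hl)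
  refine ⟨fun w => if φ w = φ v then φ u else φ w,
    Function.update (Function.update T (φ u) U) (φ v) (.pt v), ⟨fun w => ?_, fun i => ?_, ?_⟩,
    ?_, fun a b hab => ?_, fun a b hab => by simp only [hab]⟩
  · obtain ⟨z, hz, hwz⟩ := h.cov w
    refine ⟨z, ?_, hwz⟩
    by_cases h1 : φ w = φ v
    · simp only [if_pos h1, Function.update_of_ne huv, Function.update_self]
      exact (hU1 z).2 (Or.inr (h1 ▸ hz))
    · simp only [if_neg h1, Function.update_of_ne h1]
      by_cases h2 : φ w = φ u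
      · rw [h2, Function.update_self]
        exact (hU1 z).2 (Or.inl (h2 ▸ hz))
      · rw [Function.update_of_ne h2]; exact hz
  · by_cases h1 : i = φ v
    · rw [h1, Function.update_self]; trivial
    · rw [Function.update_of_ne h1]
      by_cases h2 : i = φ u
      · rw [h2, Function.update_self]; exact hU3
      · rw [Function.update_of_ne h2]; exact h.bdd i
  · rw [sum_update_cost, sum_update_cost, Function.update_of_ne huv.symm, hU2]
    have := h.cost
    simp only [Tr.cost]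
    linarith
  · unfold ncl
    refine lt_of_le_of_lt (card_le_card (t := (univ.image φ).erase (φ v)) ?_)
      (card_erase_lt_of_mem (mem_image_of_mem _ (mem_univ v)))
    intro i hi
    obtain ⟨w, -, rfl⟩ := mem_image.1 hi
    by_cases h1 : φ w = φ v
    · simp only [if_pos h1]
      exact mem_erase.2 ⟨huv, mem_image_of_mem _ (mem_univ u)⟩
    · simp only [if_neg h1]
      exact mem_erase.2 ⟨h1, mem_image_of_mem _ (mem_univ w)⟩
  · by_cases h1 : φ a = φ v <;> by_cases h2 : φ b = φ v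
    · exact Or.inl (h1.trans h2.symm)
    · simp only [if_pos h1, if_neg h2] at hab
      exact Or.inr (Or.inr ⟨h1, hab.symm⟩)
    · simp only [if_neg h1, if_pos h2] at hab
      exact Or.inr (Or.inl ⟨hab, h2⟩)
    · simp only [if_neg h1, if_neg h2] at hab
      exact Or.inl hab

omit [Fintype V] [DecidableEq V] in
theorem exists_step {R : V → V → Prop} {φ : V → V} {a b : V}
    (h : Relation.ReflTransGen R a b) (hab : φ a ≠ φ b) : ∃ x y, R x y ∧ φ x ≠ φ y := by
  induction h with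
  | refl => exact absurd rfl hab
  | @tail x y _ hxy ih =>
    by_cases h1 : φ x = φ y
    · exact ih (fun h2 => hab (h2.trans h1))
    · exact ⟨x, y, hxy, h1⟩

theorem St.merge_all {d : V → V → ℝ} (hd : IsPM d) {Q P : V → V} {r l σ : ℝ}
    (hQ : ∀ a b, Q a = Q b → Relation.ReflTransGen (fun x y => Q x = Q y ∧ d x y ≤ σ) a b)
    (hQP : ∀ a b, Q a = Q b → P a = P b) (h0 : 0 ≤ σ + 2 * r) (hl : σ + 2 * r ≤ l) :
    ∀ (n : ℕ) (φ : V → V) (T : V → Tr V) (c : ℝ), ncl φ ≤ n → St d φ T r l c →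
      (∀ a b, φ a = φ b → P a = P b) →
      ∃ φ' T', St d φ' T' r l (c + (σ + 2 * r) * ((ncl φ : ℝ) - ncl φ')) ∧
        (∀ a b, Q a = Q b → φ' a = φ' b) ∧ (∀ a b, φ' a = φ' b → P a = P b) ∧
        ncl φ' ≤ ncl φ := by
  intro n
  induction n with
  | zero =>
    intro φ T c hn h hP
    refine ⟨φ, T, by simpa using h, fun a b _ => ?_, hP, le_rfl⟩
    have : 0 < ncl φ := card_pos.2 ⟨φ a, mem_image_of_mem _ (mem_univ a)⟩
    omega
  | succ n ih =>
    intro φ T c hn h hP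
    by_cases hc : ∀ a b, Q a = Q b → φ a = φ b
    · exact ⟨φ, T, by simpa using h, hc, hP, le_rfl⟩
    push Not at hc
    obtain ⟨a, b, hab, hne⟩ := hc
    obtain ⟨x, y, ⟨hxy, hdxy⟩, hne'⟩ := exists_step (hQ a b hab) hne
    obtain ⟨φ1, T1, s1, n1, p1, -⟩ := h.merge_one hd hne' hdxy hl
    have hP1 : ∀ a b, φ1 a = φ1 b → P a = P b := by
      intro a b hab
      have hxy' := hQP x y hxy
      rcases p1 a b hab with h1 | ⟨h1, h2⟩ | ⟨h1, h2⟩
      · exact hP a b h1
      · rw [hP _ _ h1, hP _ _ h2, hxy']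
      · rw [hP _ _ h1, hP _ _ h2, hxy']
    obtain ⟨φ2, T2, s2, q2, p2, n2⟩ := ih φ1 T1 _ (by omega) s1 hP1
    refine ⟨φ2, T2, s2.mono le_rfl le_rfl ?_, q2, p2, n2.trans n1.le⟩
    have h1 : (ncl φ1 : ℝ) + 1 ≤ ncl φ := by exact_mod_cast n1
    nlinarith

theorem St.merge_range [Nonempty V] {d : V → V → ℝ} (hd : IsPM d) {c : ℕ → V → V}
    {s0 r l c0 : ℝ} (hs0 : 0 < s0) (hr : 0 ≤ r)
    (hmono : ∀ i u v, c i u = c i v → c (i + 1) u = c (i + 1) v)
    (hconn : ∀ i u v, c i u = c i v →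
      Relation.ReflTransGen (fun a b => c i a = c i b ∧ d a b ≤ s0 * 2 ^ i) u v)
    (i0 m : ℕ) (hl : s0 * 2 ^ (i0 + m) + 2 * r ≤ l) {φ : V → V} {T : V → Tr V}
    (h : St d φ T r l c0) (hP : ∀ a b, φ a = φ b → c (i0 + m) a = c (i0 + m) b) :
    ∃ φ' T', St d φ' T' r l (c0 + (s0 * 2 ^ i0 + 2 * r) * ((ncl φ : ℝ) - 1) +
        2 * ∑ i ∈ range m, s0 * 2 ^ (i0 + i) * ((ncl (c (i0 + i)) : ℝ) - 1)) ∧
      ∀ a b, φ' a = φ' b ↔ c (i0 + m) a = c (i0 + m) b := by
  have hle : ∀ i j, i ≤ j → ∀ u v, c i u = c i v → c j u = c j v := by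
    intro i j hij u v huv
    induction j, hij using Nat.le_induction with
    | base => exact huv
    | succ j _ ih => exact hmono j u v ih
  have hpow : ∀ k, k ≤ m → s0 * 2 ^ (i0 + k) + 2 * r ≤ l := by
    intro k hk
    have : (2 : ℝ) ^ (i0 + k) ≤ 2 ^ (i0 + m) := pow_le_pow_right₀ (by norm_num) (by omega)
    nlinarith
  have key : ∀ k, k ≤ m → ∃ φ' T', St d φ' T' r l (c0 + s0 * 2 ^ i0 * ((ncl φ : ℝ) - 1) +
        2 * ∑ i ∈ range k, s0 * 2 ^ (i0 + i) * ((ncl (c (i0 + i)) : ℝ) - 1) +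
        2 * r * ((ncl φ : ℝ) - ncl φ')) ∧
      (∀ a b, c (i0 + k) a = c (i0 + k) b → φ' a = φ' b) ∧
      (∀ a b, φ' a = φ' b → c (i0 + m) a = c (i0 + m) b) := by
    intro k
    induction k with
    | zero =>
      intro _
      have hp : 0 < s0 * 2 ^ i0 := by positivity
      obtain ⟨φ', T', s1, q1, p1, -⟩ := St.merge_all hd (hconn i0)
        (hle i0 (i0 + m) (by omega)) (by linarith) (hpow 0 (by omega)) _ φ T c0 le_rfl h hP
      refine ⟨φ', T', s1.mono le_rfl le_rfl ?_, q1, p1⟩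
      have h1 : (1 : ℝ) ≤ ncl φ' := by exact_mod_cast one_le_ncl φ'
      simp only [range_zero, sum_empty]
      nlinarith
    | succ k ih =>
      intro hk
      obtain ⟨φ1, T1, s1, q1, p1⟩ := ih (by omega)
      have hp : 0 < s0 * 2 ^ (i0 + k) := by positivity
      have hp2 : s0 * 2 ^ (i0 + (k + 1)) = 2 * (s0 * 2 ^ (i0 + k)) := by
        rw [← add_assoc, pow_succ]; ring
      obtain ⟨φ', T', s2, q2, p2, -⟩ := St.merge_all hd (hconn (i0 + (k + 1)))
        (hle _ (i0 + m) (by omega)) (by linarith) (hpow (k + 1) hk) _ φ1 T1 _ le_rfl s1 p1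
      refine ⟨φ', T', s2.mono le_rfl le_rfl ?_, q2, p2⟩
      have h1 : (1 : ℝ) ≤ ncl φ' := by exact_mod_cast one_le_ncl φ'
      have h2 : (ncl φ1 : ℝ) ≤ ncl (c (i0 + k)) := by exact_mod_cast ncl_le_of q1
      rw [sum_range_succ, hp2]
      nlinarith
  obtain ⟨φ', T', s1, q1, p1⟩ := key m le_rfl
  refine ⟨φ', T', s1.mono le_rfl le_rfl ?_, fun a b => ⟨p1 a b, q1 a b⟩⟩
  have h1 : (1 : ℝ) ≤ ncl φ' := by exact_mod_cast one_le_ncl φ'
  nlinarith

end Crest.Agent.X37.Geo
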