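import Crest.Agent.X37.Geo.Tree

/-!
X37 geometry: the surgery lemma.  A tree with edges of length at most `t` can be replaced by a
root component and detached components (each containing a near point, each charged `2 t`),
covering the old tree within `9 t` and saving `(μ-cost - 4 t) / 9`.
-/

set_option autoImplicit false

namespace Crest.Agent.X37.Geo

variable {V : Type*}

/-- cost of a list of detached components, each charged `lam` -/
def lcost (d : V → V → ℝ) (lam : ℝ) (L : List (Tr V)) : ℝ :=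
  (L.map fun D => D.cost d + lam).sum

/-- every detached component has short edges and contains a near point -/
def GoodL (d : V → V → ℝ) (l : ℝ) (near : V → Prop) (L : List (Tr V)) : Prop :=
  ∀ D ∈ L, D.Bdd d l ∧ ∃ y, D.Mem y ∧ near y

/-- `v` is within `R` of a detached component -/
def CovL (d : V → V → ℝ) (R : ℝ) (L : List (Tr V)) (v : V) : Prop :=
  ∃ D ∈ L, ∃ y, D.Mem y ∧ d v y ≤ R

/-- restructuring that keeps the open piece `O`, with gain `x` -/
def Keep (d : V → V → ℝ) (near : V → Prop) (t : ℝ) (T O : Tr V) (x : ℝ) : Prop :=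
  ∃ (K : Tr V) (L : List (Tr V)), K.root = T.root ∧ (∀ z, O.Mem z → K.Mem z) ∧ K.Bdd d t ∧
    GoodL d t near L ∧ (∀ v, T.Mem v → (∃ y, K.Mem y ∧ d v y ≤ 9 * t) ∨ CovL d (9 * t) L v) ∧
    K.cost d + lcost d (2 * t) L + x ≤ T.cost d

/-- restructuring that deletes the open piece `O` -/
def Del (d : V → V → ℝ) (near : V → Prop) (t : ℝ) (T O : Tr V) (z : ℝ) : Prop :=
  ∃ L : List (Tr V), GoodL d t near L ∧ (∀ v, T.Mem v → O.Mem v ∨ CovL d (9 * t) L v) ∧
    lcost d (2 * t) L + O.cost d + z ≤ T.cost d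

/-- the invariant of the bottom-up pass -/
def Inv (d μ : V → V → ℝ) (near : V → Prop) (t : ℝ) (T O : Tr V) (n : ℕ) : Prop :=
  O.root = T.root ∧ T.cost μ ≤ 9 * t * n + O.cost μ ∧
    ((n = 0 ∧ Keep d near t T O 0 ∧ Del d near t T O 0) ∨
      ∃ x, Keep d near t T O x ∧ t * (n + 1) ≤ x ∧
        (t * (n + 2) ≤ x ∨ ∃ z, Del d near t T O z ∧ 2 * t * (n + 2) ≤ x + 4 * t + z))

theorem lcost_append (d : V → V → ℝ) (lam : ℝ) (L L' : List (Tr V)) :
    lcost d lam (L ++ L') = lcost d lam L + lcost d lam L' := by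
  simp [lcost]

theorem lcost_cons (d : V → V → ℝ) (lam : ℝ) (D : Tr V) (L : List (Tr V)) :
    lcost d lam (D :: L) = D.cost d + lam + lcost d lam L := by
  simp [lcost]

theorem GoodL.append {d : V → V → ℝ} {l : ℝ} {near : V → Prop} {L L' : List (Tr V)}
    (h : GoodL d l near L) (h' : GoodL d l near L') : GoodL d l near (L ++ L') := by
  intro D hD
  rcases List.mem_append.1 hD with h1 | h1
  · exact h D h1
  · exact h' D h1

theorem CovL.left {d : V → V → ℝ} {R : ℝ} {L : List (Tr V)} (L' : List (Tr V)) {v : V}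
    (h : CovL d R L v) : CovL d R (L ++ L') v := by
  obtain ⟨D, hD, h⟩ := h
  exact ⟨D, List.mem_append_left _ hD, h⟩

theorem CovL.right {d : V → V → ℝ} {R : ℝ} (L : List (Tr V)) {L' : List (Tr V)} {v : V}
    (h : CovL d R L' v) : CovL d R (L ++ L') v := by
  obtain ⟨D, hD, h⟩ := h
  exact ⟨D, List.mem_append_right _ hD, h⟩

section
variable {d μ : V → V → ℝ} {near : V → Prop} {t : ℝ}

theorem Keep.join {s s' O O' : Tr V} {x x' : ℝ} (h : Keep d near t s O x)
    (h' : Keep d near t s' O' x') (hl : d s.root s'.root ≤ t) :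
    Keep d near t (.join s s') (.join O O') (x + x') := by
  obtain ⟨K, L, k1, k2, k3, k4, k5, k6⟩ := h
  obtain ⟨K', L', k1', k2', k3', k4', k5', k6'⟩ := h'
  refine ⟨.join K K', L ++ L', k1, ?_, ⟨k3, k3', by rwa [k1, k1']⟩, k4.append k4', ?_, ?_⟩
  · rintro z (hz | hz)
    · exact Or.inl (k2 z hz)
    · exact Or.inr (k2' z hz)
  · rintro v (hv | hv)
    · rcases k5 v hv with ⟨y, hy, hvy⟩ | h
      · exact Or.inl ⟨y, Or.inl hy, hvy⟩
      · exact Or.inr (h.left _)
    · rcases k5' v hv with ⟨y, hy, hvy⟩ | h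
      · exact Or.inl ⟨y, Or.inr hy, hvy⟩
      · exact Or.inr (h.right _)
  · simp only [Tr.cost, lcost_append, k1, k1']
    linarith

theorem Del.join {s s' O O' : Tr V} {z z' : ℝ} (h : Del d near t s O z)
    (h' : Del d near t s' O' z') (r1 : O.root = s.root) (r2 : O'.root = s'.root) :
    Del d near t (.join s s') (.join O O') (z + z') := by
  obtain ⟨L, k4, k5, k6⟩ := h
  obtain ⟨L', k4', k5', k6'⟩ := h'
  refine ⟨L ++ L', k4.append k4', ?_, ?_⟩
  · rintro v (hv | hv)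
    · rcases k5 v hv with h | h
      · exact Or.inl (Or.inl h)
      · exact Or.inr (h.left _)
    · rcases k5' v hv with h | h
      · exact Or.inl (Or.inr h)
      · exact Or.inr (h.right _)
  · simp only [Tr.cost, lcost_append, r1, r2]
    linarith

theorem Keep.toPt {T O : Tr V} {x : ℝ} (h : Keep d near t T O x) :
    Keep d near t T (.pt T.root) x := by
  obtain ⟨K, L, k1, _, k3⟩ := h
  refine ⟨K, L, k1, fun z hz => ?_, k3⟩
  have hz' : z = T.root := hz
  rw [hz', ← k1]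
  exact Tr.root_mem K

theorem Keep.le {T O : Tr V} {x x' : ℝ} (h : Keep d near t T O x) (hx : x' ≤ x) :
    Keep d near t T O x' := by
  obtain ⟨K, L, k1, k2, k3, k4, k5, k6⟩ := h
  exact ⟨K, L, k1, k2, k3, k4, k5, by linarith⟩

theorem Del.toKeep (hd : IsPM d) {T O : Tr V} {z : ℝ} (h : Del d near t T O z)
    (hr : O.root = T.root) (hO : O.cost d ≤ 9 * t) :
    Keep d near t T (.pt T.root) (O.cost d + z) := by
  obtain ⟨L, k4, k5, k6⟩ := h
  refine ⟨.pt T.root, L, rfl, fun _ hz => hz, trivial, k4, fun v hv => ?_, ?_⟩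
  · rcases k5 v hv with h | h
    · refine Or.inl ⟨T.root, rfl, ?_⟩
      have := Tr.dist_root_le hd O v h
      rw [hr] at this
      linarith
    · exact Or.inr h
  · simp only [Tr.cost]; linarith

theorem Keep.toDel {T O : Tr V} {x : ℝ} (h : Keep d near t T O x) {y : V} (hy : O.Mem y)
    (hn : near y) : Del d near t T (.pt T.root) (x - 2 * t) := by
  obtain ⟨K, L, _, k2, k3, k4, k5, k6⟩ := h
  refine ⟨K :: L, ?_, fun v hv => Or.inr ?_, ?_⟩
  · intro D hD
    rcases List.mem_cons.1 hD with rfl | h1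
    · exact ⟨k3, y, k2 y hy, hn⟩
    · exact k4 D h1
  · rcases k5 v hv with ⟨w, hw, hvw⟩ | ⟨D, hD, h⟩
    · exact ⟨K, List.mem_cons_self, w, hw, hvw⟩
    · exact ⟨D, List.mem_cons_of_mem _ hD, h⟩
  · simp only [Tr.cost, lcost_cons]; linarith

theorem Inv.join (ht : 0 ≤ t) {s s' O O' : Tr V} {n n' : ℕ} (h : Inv d μ near t s O n)
    (h' : Inv d μ near t s' O' n') (hl : d s.root s'.root ≤ t) :
    Inv d μ near t (.join s s') (.join O O') (n + n') := by
  obtain ⟨r1, c1, h1⟩ := h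
  obtain ⟨r2, c2, h2⟩ := h'
  refine ⟨r1, ?_, ?_⟩
  · simp only [Tr.cost, r1, r2]; push_cast; linarith
  rcases h1 with ⟨rfl, k1, d1⟩ | ⟨x, k1, a1, b1⟩
  · rcases h2 with ⟨rfl, k2, d2⟩ | ⟨x', k2, a2, b2⟩
    · refine Or.inl ⟨rfl, ?_, ?_⟩
      · simpa using k1.join k2 hl
      · simpa using d1.join d2 r1 r2
    · refine Or.inr ⟨x', by simpa using k1.join k2 hl, by simpa using a2, ?_⟩
      rcases b2 with b2 | ⟨z, dz, b2⟩
      · exact Or.inl (by simpa using b2)
      · exact Or.inr ⟨z, by simpa using d1.join dz r1 r2, by simpa using b2⟩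
  · rcases h2 with ⟨rfl, k2, d2⟩ | ⟨x', k2, a2, _⟩
    · refine Or.inr ⟨x, by simpa using k1.join k2 hl, by simpa using a1, ?_⟩
      rcases b1 with b1 | ⟨z, dz, b1⟩
      · exact Or.inl (by simpa using b1)
      · exact Or.inr ⟨z, by simpa using dz.join d2 r1 r2, by simpa using b1⟩
    · refine Or.inr ⟨x + x', k1.join k2 hl, ?_, Or.inl ?_⟩
      · push_cast; linarith
      · push_cast; linarith

theorem Inv.close (hd : IsPM d) (ht : 0 ≤ t) (hμd : ∀ x y, μ x y ≤ d x y)
    (hμ : ∀ x y, 0 < μ x y → near x ∨ near y) {T O : Tr V} {n : ℕ}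
    (h : Inv d μ near t T O n) (h1 : 4 * t ≤ O.cost d) (h2 : O.cost d ≤ 9 * t) :
    ∃ n', Inv d μ near t T (.pt T.root) n' := by
  obtain ⟨r1, c1, h⟩ := h
  have key : ∃ F F', Keep d near t T O F ∧ Keep d near t T (.pt T.root) F' ∧ F ≤ F' ∧
      2 * t * (n + 2) ≤ F + F' := by
    have aux : ∀ x z, Keep d near t T O x → Del d near t T O z →
        2 * t * (n + 2) ≤ x + 4 * t + z →
        ∃ F F', Keep d near t T O F ∧ Keep d near t T (.pt T.root) F' ∧ F ≤ F' ∧
          2 * t * (n + 2) ≤ F + F' := by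
      intro x z kx dz hb
      have k2 := dz.toKeep hd r1 h2
      rcases le_total x (O.cost d + z) with hc | hc
      · exact ⟨x, _, kx, k2, hc, by linarith⟩
      · exact ⟨x, x, kx, kx.toPt, le_rfl, by linarith⟩
    rcases h with ⟨rfl, k1, d1⟩ | ⟨x, k1, _, b1 | ⟨z, dz, b1⟩⟩
    · exact aux 0 0 k1 d1 (by simp; linarith)
    · exact ⟨x, x, k1, k1.toPt, le_rfl, by linarith⟩
    · exact aux x z k1 dz b1
  obtain ⟨F, F', k1, k2, hF, hS⟩ := key
  have hn : (0 : ℝ) ≤ t * n := mul_nonneg ht (Nat.cast_nonneg n)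
  by_cases hp : 0 < O.cost μ
  · obtain ⟨y, hy, hny⟩ := Tr.exists_near hμ O hp
    have c2 := Tr.cost_mono hμd O
    refine ⟨n + 1, rfl, ?_, Or.inr ⟨F', k2, ?_, Or.inr ⟨F - 2 * t, k1.toDel hy hny, ?_⟩⟩⟩
    · simp only [Tr.cost]; push_cast; linarith
    · push_cast; linarith
    · push_cast; linarith
  · refine ⟨n, rfl, ?_, Or.inr ⟨F', k2, by linarith, Or.inl (by linarith)⟩⟩
    simp only [Tr.cost]; linarith

theorem exists_inv (hd : IsPM d) (ht : 0 < t) (hμd : ∀ x y, μ x y ≤ d x y)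
    (hμ : ∀ x y, 0 < μ x y → near x ∨ near y) :
    ∀ T : Tr V, T.Bdd d t → ∃ O n, O.cost d < 4 * t ∧ Inv d μ near t T O n
  | .pt v, _ => by
    refine ⟨.pt v, 0, by simp only [Tr.cost]; linarith, rfl, by simp [Tr.cost], Or.inl ⟨rfl, ?_, ?_⟩⟩
    · refine ⟨.pt v, [], rfl, fun _ h => h, trivial, by simp [GoodL], fun w hw => ?_, ?_⟩
      · have hw' : w = v := hw
        refine Or.inl ⟨v, rfl, ?_⟩
        rw [hw', hd.self]; linarith
      · simp [lcost]
    · exact ⟨[], by simp [GoodL], fun w hw => Or.inl hw, by simp [lcost]⟩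
  | .join s s', ⟨b1, b2, b3⟩ => by
    obtain ⟨O, n, c1, i1⟩ := exists_inv hd ht hμd hμ s b1
    obtain ⟨O', n', c2, i2⟩ := exists_inv hd ht hμd hμ s' b2
    have i3 := i1.join ht.le i2 b3
    by_cases hc : (Tr.join O O').cost d < 4 * t
    · exact ⟨_, _, hc, i3⟩
    · have h9 : (Tr.join O O').cost d ≤ 9 * t := by
        simp only [Tr.cost, i1.1, i2.1]; linarith
      obtain ⟨n'', i4⟩ := i3.close hd ht.le hμd hμ (not_lt.1 hc) h9
      exact ⟨_, n'', by simp only [Tr.cost]; linarith, i4⟩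

/-- **Surgery lemma.** -/
theorem surgery (hd : IsPM d) (ht : 0 < t) (hμd : ∀ x y, μ x y ≤ d x y)
    (hμ : ∀ x y, 0 < μ x y → near x ∨ near y) (T : Tr V) (hT : T.Bdd d t) :
    ∃ (K : Tr V) (L : List (Tr V)), K.Bdd d t ∧ GoodL d t near L ∧
      (∀ v, T.Mem v → (∃ y, K.Mem y ∧ d v y ≤ 9 * t) ∨ CovL d (9 * t) L v) ∧
      K.cost d + lcost d (2 * t) L + (T.cost μ - 4 * t) / 9 ≤ T.cost d := by
  obtain ⟨O, n, c1, _, c2, h⟩ := exists_inv hd ht hμd hμ T hT
  have c3 := Tr.cost_mono hμd O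
  have : Keep d near t T O ((T.cost μ - 4 * t) / 9) := by
    rcases h with ⟨rfl, k1, _⟩ | ⟨x, k1, a1, _⟩
    · refine k1.le ?_
      simp at c2; linarith
    · refine k1.le ?_
      linarith
  obtain ⟨K, L, _, _, k3, k4, k5, k6⟩ := this
  exact ⟨K, L, k3, k4, k5, k6⟩

end

end Crest.Agent.X37.Geo
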