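import Crest.Agent.X37.Geo.Tent
import Crest.Agent.X37.Geo.Surgery
import Crest.Agent.X37.Geo.Merge

/-!
X37 geometry: the saving step.  Surgery on the red trees, detached components are hung on blue
trees.
-/

set_option autoImplicit false

namespace Crest.Agent.X37.Geo

open Finset

variable {V : Type} [Fintype V] [DecidableEq V]

theorem attach_list {d : V → V → ℝ} (hd : IsPM d) {l lam : ℝ} (hl : lam ≤ l) (ok : V → Prop) :
    ∀ (L : List (Tr V)) (T : V → Tr V), (∀ j, (T j).Bdd d l) →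
      (∀ D ∈ L, D.Bdd d l ∧ ∃ j, ok j ∧ ∃ y z, D.Mem y ∧ (T j).Mem z ∧ d z y ≤ lam) →
      ∃ T' : V → Tr V, (∀ j, (T' j).Bdd d l) ∧ (∀ j z, (T j).Mem z → (T' j).Mem z) ∧
        (∀ D ∈ L, ∃ j, ok j ∧ ∀ y, D.Mem y → (T' j).Mem y) ∧
        ∑ j, (T' j).cost d ≤ ∑ j, (T j).cost d + lcost d lam L := by
  intro L
  induction L with
  | nil =>
    intro T hT _
    exact ⟨T, hT, fun _ _ h => h, fun D hD => absurd hD List.not_mem_nil, by simp [lcost]⟩
  | cons D L ih =>
    intro T hT hL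
    obtain ⟨T1, b1, m1, o1, c1⟩ := ih T hT fun D' hD' => hL D' (List.mem_cons_of_mem _ hD')
    obtain ⟨hD, j, hj, y, z, hy, hz, hyz⟩ := hL D List.mem_cons_self
    obtain ⟨U, hU1, hU2, hU3⟩ := Tr.link hd (m1 j z hz) hy (b1 j) hD (hyz.trans hl)
    have hm : ∀ i z, (T1 i).Mem z → (Function.update T1 j U i).Mem z := by
      intro i w hw
      by_cases h : i = j
      · subst h; rw [Function.update_self]; exact (hU1 w).2 (Or.inl hw)
      · rwa [Function.update_of_ne h]
    refine ⟨Function.update T1 j U, fun i => ?_, fun i z hz => hm i z (m1 i z hz), ?_, ?_⟩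
    · by_cases h : i = j
      · subst h; rwa [Function.update_self]
      · rw [Function.update_of_ne h]; exact b1 i
    · intro D' hD'
      rcases List.mem_cons.1 hD' with rfl | h
      · refine ⟨j, hj, fun w hw => ?_⟩
        rw [Function.update_self]; exact (hU1 w).2 (Or.inr hw)
      · obtain ⟨i, hi, h'⟩ := o1 D' h
        exact ⟨i, hi, fun w hw => hm i w (h' w hw)⟩
    · rw [sum_update_cost, lcost_cons, hU2]
      linarith

theorem attach_all {d : V → V → ℝ} (hd : IsPM d) {l lam : ℝ} (hl : lam ≤ l) (ok : V → V → Prop)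
    (L : V → List (Tr V)) (T : V → Tr V) (hT : ∀ j, (T j).Bdd d l) (I : Finset V) :
    (∀ i ∈ I, ∀ D ∈ L i, D.Bdd d l ∧ ∃ j, ok i j ∧ ∃ y z, D.Mem y ∧ (T j).Mem z ∧ d z y ≤ lam) →
      ∃ T' : V → Tr V, (∀ j, (T' j).Bdd d l) ∧ (∀ j z, (T j).Mem z → (T' j).Mem z) ∧
        (∀ i ∈ I, ∀ D ∈ L i, ∃ j, ok i j ∧ ∀ y, D.Mem y → (T' j).Mem y) ∧
        ∑ j, (T' j).cost d ≤ ∑ j, (T j).cost d + ∑ i ∈ I, lcost d lam (L i) := by
  induction I using Finset.induction_on with
  | empty =>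
    intro _
    exact ⟨T, hT, fun _ _ h => h, fun i hi => absurd hi (notMem_empty i), by simp⟩
  | insert i I hi ih =>
    intro hL
    obtain ⟨T1, b1, m1, o1, c1⟩ := ih fun i' hi' => hL i' (mem_insert_of_mem hi')
    obtain ⟨T2, b2, m2, o2, c2⟩ := attach_list hd hl (ok i) (L i) T1 b1 fun D hD => by
      obtain ⟨h1, j, hj, y, z, hy, hz, hyz⟩ := hL i (mem_insert_self _ _) D hD
      exact ⟨h1, j, hj, y, z, hy, m1 j z hz, hyz⟩
    refine ⟨T2, b2, fun j z hz => m2 j z (m1 j z hz), fun i' hi' D hD => ?_, ?_⟩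
    · rcases mem_insert.1 hi' with rfl | h
      · exact o2 D hD
      · obtain ⟨j, hj, h'⟩ := o1 i' h D hD
        exact ⟨j, hj, fun y hy => m2 j y (h' y hy)⟩
    · rw [sum_insert hi]; linarith

/-- **The saving step.** -/
theorem St.save [Nonempty V] {d : V → V → ℝ} (hd : IsPM d) {φ P : V → V} {T : V → Tr V}
    {r t c δ : ℝ} (ht : 0 < t) (hδ : 0 < δ) (hδ1 : δ ≤ 1) (hr : r ≤ δ * t / 4)
    (h : St d φ T r (2 * t) c) (hP : ∀ a b, φ a = φ b → P a = P b) (Z : Finset V)
    (hZ : ∀ x ∈ Z, ∀ y ∈ Z, x ≠ y → δ * t ≤ d x y)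
    (hy : ∀ x ∈ Z, ∃ y, d x y ≤ t ∧ φ x ≠ φ y ∧ P x = P y) :
    ∃ φ' T', St d φ' T' (r + 18 * t) (4 * t)
        (c - δ * t * Z.card / 144 + t * ((ncl φ : ℝ) - 1)) ∧
      (∀ a b, φ' a = φ' b → P a = P b) ∧ ncl φ' ≤ ncl φ := by
  classical
  choose! y hy1 hy2 hy3 using hy
  obtain ⟨red, hred⟩ := exists_colouring Z φ (fun x => φ (y x)) hy2
  set A := Z.filter fun p => red (φ p) = true ∧ red (φ (y p)) = false with hA
  set I := A.image φ with hI
  have hAZ : ∀ p ∈ A, p ∈ Z := fun p hp => (mem_filter.1 hp).1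
  have hblue : ∀ p ∈ A, φ (y p) ∉ I := by
    intro p hp hi
    obtain ⟨p', hp', he⟩ := mem_image.1 hi
    have h1 := (mem_filter.1 hp').2.1
    have h2 := (mem_filter.1 hp).2.2
    rw [he, h2] at h1
    exact Bool.false_ne_true h1
  have hsep : ∀ i, ∀ p ∈ A.filter (fun p => φ p = i), ∀ q ∈ A.filter (fun p => φ p = i), p ≠ q →
      2 * (δ * t / 2) ≤ d p q := by
    intro i p hp q hq hne
    have := hZ p (hAZ p (mem_filter.1 hp).1) q (hAZ q (mem_filter.1 hq).1) hne
    linarith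
  have hδt : 0 < δ * t := by positivity
  have hδt1 : δ * t ≤ t := by nlinarith
  have hs := fun i => surgery (d := d) (μ := tmu d (δ * t / 2) (A.filter fun p => φ p = i))
    (near := fun x => ∃ p ∈ A.filter (fun p => φ p = i), d x p < δ * t / 2) (t := 2 * t) hd
    (by linarith) (tmu_le hd (hsep i)) (fun x y hxy => tmu_near hxy) (T i) (h.bdd i)
  choose K L k1 k2 k3 k4 using hs
  have hT1 : ∀ j, (if j ∈ I then K j else T j).Bdd d (4 * t) := by
    intro j
    split_ifs
    · exact (k1 j).mono (by linarith)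
    · exact (h.bdd j).mono (by linarith)
  obtain ⟨T', b', m', o', c'⟩ := attach_all hd (l := 4 * t) (lam := 2 * (2 * t)) (by linarith)
    (fun i j => ∃ p w, φ p = i ∧ φ w = j ∧ P p = P w) L (fun j => if j ∈ I then K j else T j)
    hT1 I (by
      intro i _ D hD
      obtain ⟨h1, x, hx, p, hp, hxp⟩ := k2 i D hD
      obtain ⟨hpA, hpi⟩ := mem_filter.1 hp
      obtain ⟨z, hz, hz'⟩ := h.cov (y p)
      refine ⟨h1.mono (by linarith), φ (y p), ⟨p, y p, hpi, rfl, hy3 p (hAZ p hpA)⟩, x, z, hx,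
        by simpa only [if_neg (hblue p hpA)] using hz, ?_⟩
      have h2 := hy1 p (hAZ p hpA)
      have h3 := hd.tri z (y p) x
      have h4 := hd.tri (y p) p x
      rw [hd.symm z (y p)] at h3
      rw [hd.symm (y p) p, hd.symm p x] at h4
      linarith)
  have hcov : ∀ v, ∃ w, P v = P w ∧ ∃ x, (T' (φ w)).Mem x ∧ d v x ≤ r + 18 * t := by
    intro v
    obtain ⟨x, hx, hvx⟩ := h.cov v
    by_cases hi : φ v ∈ I
    · rcases k3 (φ v) x hx with ⟨z, hz, hxz⟩ | ⟨D, hD, z, hz, hxz⟩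
      · refine ⟨v, rfl, z, m' _ z (by simpa only [if_pos hi] using hz), ?_⟩
        have := hd.tri v x z
        linarith
      · obtain ⟨j, ⟨p, w, h1, h2, h3⟩, h4⟩ := o' _ hi D hD
        refine ⟨w, (hP _ _ h1).symm.trans h3, z, h2 ▸ h4 z hz, ?_⟩
        have := hd.tri v x z
        linarith
    · exact ⟨v, rfl, x, m' _ x (by simpa only [if_neg hi] using hx), by linarith⟩
  choose w hw1 hw2 using hcov
  refine ⟨fun v => φ (w v), T', ⟨hw2, b', c'.trans ?_⟩,
    fun a b hab => (hw1 a).trans ((hP _ _ hab).trans (hw1 b).symm), ?_⟩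
  · have e1 : ∑ j, (if j ∈ I then K j else T j).cost d =
        ∑ j, (T j).cost d - ∑ j ∈ I, ((T j).cost d - (K j).cost d) := by
      rw [← sum_ite_mem_eq I (fun j => (T j).cost d - (K j).cost d), ← sum_sub_distrib]
      refine sum_congr rfl fun j _ => ?_
      split_ifs <;> ring
    have e2 : ∑ j ∈ I, (lcost d (2 * (2 * t)) (L j) +
        (δ * t / 36 * ((A.filter fun p => φ p = j).card : ℝ) - t)) ≤
        ∑ j ∈ I, ((T j).cost d - (K j).cost d) := by
      refine sum_le_sum fun j _ => ?_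
      have h1 := k4 j
      have h2 := tmu_cost hd (by linarith) (hsep j) (T j) (by
        intro p hp
        obtain ⟨x, hx, hpx⟩ := h.cov p
        exact ⟨x, (mem_filter.1 hp).2 ▸ hx, by linarith⟩)
      linarith
    have e3 : ∑ j ∈ I, ((A.filter fun p => φ p = j).card : ℝ) = A.card := by
      exact_mod_cast (card_eq_sum_card_image φ A).symm
    have e4 : (I.card : ℝ) ≤ (ncl φ : ℝ) - 1 := by
      have : I.card < ncl φ := by
        rcases A.eq_empty_or_nonempty with h0 | ⟨p, hp⟩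
        · rw [hI, h0]; exact one_le_ncl φ
        · exact card_lt_card ⟨image_subset_image (subset_univ _),
            fun hc => hblue p hp (hc (mem_image_of_mem _ (mem_univ _)))⟩
      have h1 : (I.card : ℝ) + 1 ≤ ncl φ := by exact_mod_cast this
      linarith
    have e5 : (Z.card : ℝ) ≤ 4 * A.card := by exact_mod_cast hred
    rw [sum_add_distrib, sum_sub_distrib, ← mul_sum, e3, sum_const, nsmul_eq_mul] at e2
    have e6 := h.cost
    have e7 := mul_le_mul_of_nonneg_left e4 ht.le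
    have e8 := mul_le_mul_of_nonneg_left e5 hδt.le
    rw [e1]
    linarith
  · refine card_le_card fun i hi => ?_
    obtain ⟨v, -, rfl⟩ := mem_image.1 hi
    exact mem_image_of_mem _ (mem_univ _)

end Crest.Agent.X37.Geo
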