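import Crest.Agent.X37.Geo.Tree

/-!
X37 geometry: the red/blue colouring lemma and the tent functions of a separated set.
-/

set_option autoImplicit false

namespace Crest.Agent.X37.Geo

open Finset

variable {V : Type}

/-- a colouring that makes a quarter of the pairs red-blue -/
theorem exists_colouring [Fintype V] [DecidableEq V] (Z : Finset V) (a b : V → V)
    (hab : ∀ p ∈ Z, a p ≠ b p) :
    ∃ red : V → Bool, Z.card ≤ 4 * (Z.filter fun p => red (a p) = true ∧ red (b p) = false).card := by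
  classical
  let flip : V → (V → Bool) → (V → Bool) := fun u r => Function.update r u (!r u)
  have hinv : ∀ u, Function.Involutive (flip u) := by
    intro u r
    funext w
    by_cases h : w = u
    · subst h; simp [flip]
    · simp [flip, Function.update_of_ne h]
  have hsum : ∀ (u : V) (g : (V → Bool) → ℕ), ∑ r, g (flip u r) = ∑ r, g r := fun u g =>
    Equiv.sum_comp (hinv u).toPerm g
  have hone : ∀ p ∈ Z, ∑ r : V → Bool, 4 * (if r (a p) = true ∧ r (b p) = false then 1 else 0)
      = ∑ _r : V → Bool, 1 := by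
    intro p hp
    have hne := hab p hp
    let g : (V → Bool) → ℕ := fun r => if r (a p) = true ∧ r (b p) = false then 1 else 0
    have h1 := hsum (a p) g
    have h2 := hsum (b p) g
    have h3 := hsum (b p) (fun r => g (flip (a p) r))
    have h4 : ∀ r, g r + g (flip (a p) r) + g (flip (b p) r) + g (flip (a p) (flip (b p) r)) = 1 := by
      intro r
      simp only [g, flip, Function.update_self, Function.update_of_ne hne,
        Function.update_of_ne hne.symm]
      cases r (a p) <;> cases r (b p) <;> simp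
    have h5 : ∑ r, (g r + g (flip (a p) r) + g (flip (b p) r) + g (flip (a p) (flip (b p) r)))
        = ∑ _r : V → Bool, 1 := sum_congr rfl fun r _ => h4 r
    rw [sum_add_distrib, sum_add_distrib, sum_add_distrib, h3, h1, h2] at h5
    rw [← mul_sum, ← h5]
    ring
  have htot : ∑ _r : V → Bool, Z.card ≤ ∑ r : V → Bool,
      4 * (Z.filter fun p => r (a p) = true ∧ r (b p) = false).card := by
    refine le_of_eq ?_
    calc ∑ _r : V → Bool, Z.card = ∑ _r : V → Bool, ∑ _p ∈ Z, 1 := by simp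
      _ = ∑ _p ∈ Z, ∑ _r : V → Bool, 1 := sum_comm
      _ = ∑ p ∈ Z, ∑ r : V → Bool, 4 * (if r (a p) = true ∧ r (b p) = false then 1 else 0) :=
          sum_congr rfl fun p hp => (hone p hp).symm
      _ = ∑ r : V → Bool, ∑ p ∈ Z, 4 * (if r (a p) = true ∧ r (b p) = false then 1 else 0) :=
          sum_comm
      _ = _ := sum_congr rfl fun r _ => by rw [← mul_sum, card_filter]
  obtain ⟨r, -, hr⟩ := exists_le_of_sum_le univ_nonempty htot
  exact ⟨r, hr⟩

theorem sum_le_one_term [DecidableEq V] {A : Finset V} {g : V → ℝ} {q : V}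
    (h : ∀ p ∈ A, p ≠ q → g p = 0) (h0 : 0 ≤ g q) : ∑ p ∈ A, g p ≤ g q := by
  by_cases hq : q ∈ A
  · exact le_of_eq (sum_eq_single_of_mem q hq h)
  · rw [sum_eq_zero fun p hp => h p hp (fun e => hq (e ▸ hp))]
    exact h0

/-- the tent of radius `ρ` at `p` -/
noncomputable def tent (d : V → V → ℝ) (ρ : ℝ) (p x : V) : ℝ := max (ρ - d x p) 0

/-- the total variation of the tents -/
noncomputable def tmu (d : V → V → ℝ) (ρ : ℝ) (A : Finset V) (x y : V) : ℝ :=
  ∑ p ∈ A, |tent d ρ p x - tent d ρ p y|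

section
variable {d : V → V → ℝ} {ρ : ℝ} {A : Finset V}

theorem tent_nonneg (p x : V) : 0 ≤ tent d ρ p x := le_max_right _ _

theorem tent_eq_zero {p x : V} (h : ¬ d x p < ρ) : tent d ρ p x = 0 :=
  max_eq_right (by linarith [not_lt.1 h])

theorem tent_lip (hd : IsPM d) (p x y : V) : |tent d ρ p x - tent d ρ p y| ≤ d x y := by
  refine (abs_max_sub_max_le_abs _ _ _).trans ?_
  have h1 := hd.tri x y p
  have h2 := hd.tri y x p
  rw [hd.symm y x] at h2
  rw [abs_le]; constructor <;> linarith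

theorem tent_unique (hd : IsPM d) (hA : ∀ p ∈ A, ∀ q ∈ A, p ≠ q → 2 * ρ ≤ d p q) {x q : V}
    (hq : q ∈ A) (hx : d x q < ρ) : ∀ p ∈ A, p ≠ q → tent d ρ p x = 0 := by
  intro p hp hne
  refine tent_eq_zero fun h => ?_
  have h1 := hA p hp q hq hne
  have h2 := hd.tri p x q
  rw [hd.symm p x] at h2
  linarith

theorem tmu_le [DecidableEq V] (hd : IsPM d) (hA : ∀ p ∈ A, ∀ q ∈ A, p ≠ q → 2 * ρ ≤ d p q)
    (x y : V) : tmu d ρ A x y ≤ d x y := by
  have one : ∀ q, (∀ p ∈ A, p ≠ q → tent d ρ p x = 0) → (∀ p ∈ A, p ≠ q → tent d ρ p y = 0) →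
      tmu d ρ A x y ≤ d x y := by
    intro q h1 h2
    refine (sum_le_one_term (q := q) (fun p hp hne => ?_) (abs_nonneg _)).trans (tent_lip hd q x y)
    rw [h1 p hp hne, h2 p hp hne]; simp
  by_cases hx : ∃ p ∈ A, d x p < ρ
  · obtain ⟨px, hpx, hx⟩ := hx
    have ux := tent_unique hd hA hpx hx
    by_cases hy : ∃ p ∈ A, d y p < ρ
    · obtain ⟨py, hpy, hy⟩ := hy
      have uy := tent_unique hd hA hpy hy
      by_cases he : px = py
      · subst he; exact one px ux uy
      · have h1 := sum_le_one_term (g := fun p => tent d ρ p x) ux (tent_nonneg _ _)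
        have h2 := sum_le_one_term (g := fun p => tent d ρ p y) uy (tent_nonneg _ _)
        have h3 : tmu d ρ A x y ≤ ∑ p ∈ A, (tent d ρ p x + tent d ρ p y) := by
          refine sum_le_sum fun p _ => ?_
          have := tent_nonneg (d := d) (ρ := ρ) p x
          have := tent_nonneg (d := d) (ρ := ρ) p y
          rw [abs_le]; constructor <;> linarith
        rw [sum_add_distrib] at h3
        have h4 : tent d ρ px x = ρ - d x px := max_eq_left (by linarith)
        have h5 : tent d ρ py y = ρ - d y py := max_eq_left (by linarith)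
        have h6 := hA px hpx py hpy he
        have h7 := hd.tri px x py
        have h8 := hd.tri x y py
        rw [hd.symm px x] at h7
        simp only [h4, h5] at h1 h2
        linarith
    · exact one px ux fun p hp _ => tent_eq_zero fun h => hy ⟨p, hp, h⟩
  · by_cases hy : ∃ p ∈ A, d y p < ρ
    · obtain ⟨py, hpy, hy⟩ := hy
      exact one py (fun p hp _ => tent_eq_zero fun h => hx ⟨p, hp, h⟩) (tent_unique hd hA hpy hy)
    · exact one x (fun p hp _ => tent_eq_zero fun h => hx ⟨p, hp, h⟩)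
        fun p hp _ => tent_eq_zero fun h => hy ⟨p, hp, h⟩

theorem tmu_near {x y : V} (h : 0 < tmu d ρ A x y) :
    (∃ p ∈ A, d x p < ρ) ∨ ∃ p ∈ A, d y p < ρ := by
  by_contra hc
  rw [not_or] at hc
  refine h.ne' (sum_eq_zero fun p hp => ?_)
  rw [tent_eq_zero fun h => hc.1 ⟨p, hp, h⟩, tent_eq_zero fun h => hc.2 ⟨p, hp, h⟩]
  simp

theorem tmu_cost [DecidableEq V] (hd : IsPM d) (hρ : 0 ≤ ρ)
    (hA : ∀ p ∈ A, ∀ q ∈ A, p ≠ q → 2 * ρ ≤ d p q) (T : Tr V)
    (hT : ∀ p ∈ A, ∃ x, T.Mem x ∧ d p x ≤ ρ / 2) :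
    ρ / 2 * A.card - ρ ≤ T.cost (tmu d ρ A) := by
  have h1 : T.cost (tmu d ρ A) = ∑ p ∈ A, T.cost fun a b => |tent d ρ p a - tent d ρ p b| :=
    Tr.cost_sum A (fun p a b => |tent d ρ p a - tent d ρ p b|) T
  have h2 : ∑ p ∈ A, (ρ / 2 - tent d ρ p T.root) ≤
      ∑ p ∈ A, T.cost fun a b => |tent d ρ p a - tent d ρ p b| := by
    refine sum_le_sum fun p hp => ?_
    obtain ⟨x, hx, hpx⟩ := hT p hp
    have h3 := Tr.sub_root_le (tent d ρ p) T x hx
    have h4 : ρ - d x p ≤ tent d ρ p x := le_max_left _ _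
    rw [hd.symm x p] at h4
    linarith
  have h3 : ∑ p ∈ A, tent d ρ p T.root ≤ ρ := by
    by_cases hx : ∃ p ∈ A, d T.root p < ρ
    · obtain ⟨q, hq, hx⟩ := hx
      refine (sum_le_one_term (g := fun p => tent d ρ p T.root) (tent_unique hd hA hq hx)
        (tent_nonneg _ _)).trans ?_
      have := hd.nonneg T.root q
      exact max_le (by linarith) hρ
    · rw [sum_eq_zero fun p hp => tent_eq_zero fun h => hx ⟨p, hp, h⟩]
      exact hρ
  rw [sum_sub_distrib, sum_const, nsmul_eq_mul] at h2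
  rw [h1]
  linarith

end

end Crest.Agent.X37.Geo
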