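import Crest.Agent.X37.Geo.Defs

/-!
X37 geometry: basic facts on the rooted trees `Tr` (grafting, re-rooting, linking).
-/

set_option autoImplicit false

namespace Crest.Agent.X37.Geo.Tr

variable {V : Type*}

theorem root_mem (t : Tr V) : t.Mem t.root := by
  induction t with
  | pt v => exact rfl
  | join s t hs _ => exact Or.inl hs

theorem cost_nonneg {f : V → V → ℝ} (hf : ∀ x y, 0 ≤ f x y) (t : Tr V) : 0 ≤ t.cost f := by
  induction t with
  | pt v => exact le_rfl
  | join s t hs ht =>
    have := hf s.root t.root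
    simp only [cost]; linarith

theorem cost_mono {f g : V → V → ℝ} (h : ∀ x y, f x y ≤ g x y) (t : Tr V) :
    t.cost f ≤ t.cost g := by
  induction t with
  | pt v => exact le_rfl
  | join s t hs ht =>
    have := h s.root t.root
    simp only [cost]; linarith

theorem Bdd.mono {d : V → V → ℝ} {l l' : ℝ} (h : l ≤ l') :
    ∀ {t : Tr V}, t.Bdd d l → t.Bdd d l'
  | pt _, _ => trivial
  | join _ _, ⟨h1, h2, h3⟩ => ⟨Bdd.mono h h1, Bdd.mono h h2, h3.trans h⟩

/-- a pseudo-metric distance from a point to the root is at most the cost -/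
theorem dist_root_le {d : V → V → ℝ} (hd : IsPM d) :
    ∀ (t : Tr V) (x : V), t.Mem x → d x t.root ≤ t.cost d
  | pt v, x, h => by
    have h' : x = v := h
    subst h'
    simp [root, cost, hd.self]
  | join s t, x, h => by
    have h1 := cost_nonneg hd.nonneg s
    have h2 := cost_nonneg hd.nonneg t
    have h3 := hd.nonneg s.root t.root
    rcases h with h | h
    · have := dist_root_le hd s x h
      simp only [root, cost]; linarith
    · have h4 := dist_root_le hd t x h
      have h5 := hd.tri x t.root s.root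
      rw [hd.symm t.root s.root] at h5
      simp only [root, cost]; linarith

/-- if the `μ`-cost is positive some edge has positive `μ`-length -/
theorem exists_near {μ : V → V → ℝ} {near : V → Prop}
    (hμ : ∀ x y, 0 < μ x y → near x ∨ near y) :
    ∀ (t : Tr V), 0 < t.cost μ → ∃ x, t.Mem x ∧ near x
  | pt _, h => absurd h (lt_irrefl _)
  | join s t, h => by
    simp only [cost] at h
    by_cases h1 : 0 < s.cost μ
    · obtain ⟨x, hx, hn⟩ := exists_near hμ s h1
      exact ⟨x, Or.inl hx, hn⟩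
    by_cases h2 : 0 < t.cost μ
    · obtain ⟨x, hx, hn⟩ := exists_near hμ t h2
      exact ⟨x, Or.inr hx, hn⟩
    have h3 : 0 < μ s.root t.root := by linarith
    rcases hμ _ _ h3 with h4 | h4
    · exact ⟨_, Or.inl (root_mem s), h4⟩
    · exact ⟨_, Or.inr (root_mem t), h4⟩

/-- hang the root of `t` below a point `x` of `s` -/
theorem graft {d : V → V → ℝ} {l : ℝ} (t : Tr V) (ht : t.Bdd d l) :
    ∀ (s : Tr V) (x : V), s.Mem x → s.Bdd d l → d x t.root ≤ l →
      ∃ u : Tr V, u.root = s.root ∧ (∀ z, u.Mem z ↔ s.Mem z ∨ t.Mem z) ∧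
        u.cost d = s.cost d + t.cost d + d x t.root ∧ u.Bdd d l
  | pt v, x, h, _, hl => by
    have h' : x = v := h
    subst h'
    exact ⟨join (pt x) t, rfl, fun z => Iff.rfl, rfl, trivial, ht, hl⟩
  | join s1 s2, x, h, ⟨b1, b2, b3⟩, hl => by
    rcases h with h | h
    · obtain ⟨u, hu1, hu2, hu3, hu4⟩ := graft t ht s1 x h b1 hl
      refine ⟨join u s2, hu1, fun z => ?_, ?_, hu4, b2, by rwa [hu1]⟩
      · simp only [Mem, hu2]; tauto
      · simp only [cost, hu3, hu1]; ring
    · obtain ⟨u, hu1, hu2, hu3, hu4⟩ := graft t ht s2 x h b2 hl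
      refine ⟨join s1 u, rfl, fun z => ?_, ?_, b1, hu4, by rwa [hu1]⟩
      · simp only [Mem, hu2]; tauto
      · simp only [cost, hu3, hu1]; ring

/-- move the root to any point -/
theorem reroot {d : V → V → ℝ} (hd : IsPM d) {l : ℝ} :
    ∀ (t : Tr V) (y : V), t.Mem y → t.Bdd d l →
      ∃ u : Tr V, u.root = y ∧ (∀ z, u.Mem z ↔ t.Mem z) ∧ u.cost d = t.cost d ∧ u.Bdd d l
  | pt v, y, h, _ => by
    have h' : y = v := h
    subst h'
    exact ⟨pt y, rfl, fun z => Iff.rfl, rfl, trivial⟩
  | join s t, y, h, ⟨b1, b2, b3⟩ => by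
    rcases h with h | h
    · obtain ⟨u, hu1, hu2, hu3, hu4⟩ := reroot hd s y h b1
      obtain ⟨w, hw1, hw2, hw3, hw4⟩ :=
        graft t b2 u s.root ((hu2 _).2 (root_mem s)) hu4 b3
      refine ⟨w, hw1.trans hu1, fun z => ?_, ?_, hw4⟩
      · simp only [Mem, hw2, hu2]
      · simp only [cost, hw3, hu3]
    · obtain ⟨u, hu1, hu2, hu3, hu4⟩ := reroot hd t y h b2
      obtain ⟨w, hw1, hw2, hw3, hw4⟩ :=
        graft s b1 u t.root ((hu2 _).2 (root_mem t)) hu4 (by rwa [hd.symm])
      refine ⟨w, hw1.trans hu1, fun z => ?_, ?_, hw4⟩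
      · simp only [Mem, hw2, hu2]; tauto
      · simp only [cost, hw3, hu3, hd.symm t.root s.root]; ring

/-- join two trees by an edge between arbitrary points -/
theorem link {d : V → V → ℝ} (hd : IsPM d) {l : ℝ} {s t : Tr V} {x y : V} (hx : s.Mem x)
    (hy : t.Mem y) (hs : s.Bdd d l) (ht : t.Bdd d l) (hl : d x y ≤ l) :
    ∃ u : Tr V, (∀ z, u.Mem z ↔ s.Mem z ∨ t.Mem z) ∧
      u.cost d = s.cost d + t.cost d + d x y ∧ u.Bdd d l := by
  obtain ⟨u, hu1, hu2, hu3, hu4⟩ := reroot hd t y hy ht
  obtain ⟨w, _, hw2, hw3, hw4⟩ := graft u hu4 s x hx hs (by rwa [hu1])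
  refine ⟨w, fun z => ?_, ?_, hw4⟩
  · rw [hw2, hu2]
  · rw [hw3, hu3, hu1]

/-- oscillation of a function along a tree -/
theorem sub_root_le (g : V → ℝ) :
    ∀ (t : Tr V) (x : V), t.Mem x → g x - g t.root ≤ t.cost (fun a b => |g a - g b|)
  | pt v, x, h => by
    have h' : x = v := h
    subst h'
    simp [root, cost]
  | join s t, x, h => by
    have h1 := cost_nonneg (f := fun a b => |g a - g b|) (fun _ _ => abs_nonneg _) s
    have h2 := cost_nonneg (f := fun a b => |g a - g b|) (fun _ _ => abs_nonneg _) t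
    have h3 := abs_nonneg (g s.root - g t.root)
    have h4 := neg_abs_le (g s.root - g t.root)
    rcases h with h | h
    · have := sub_root_le g s x h
      simp only [root, cost]; linarith
    · have := sub_root_le g t x h
      simp only [root, cost]; linarith

theorem cost_sum {ι : Type*} (A : Finset ι) (f : ι → V → V → ℝ) (t : Tr V) :
    t.cost (fun a b => ∑ p ∈ A, f p a b) = ∑ p ∈ A, t.cost (f p) := by
  induction t with
  | pt v => simp [cost]
  | join s t hs ht => simp only [cost, hs, ht, Finset.sum_add_distrib]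

end Crest.Agent.X37.Geo.Tr
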